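import Vale.Agent.P221X.Base.Spec

/-!
# P221X, rows FIX and SCHUR: the fixed field of `G` is `F`; Schur's lemma for `K`
-/

noncomputable section

namespace Vale.Agent.P221X.FIX

open PowerSeries Finset

variable {p : ℕ} {F : Type} [Field F] {D : GD p F} {R : Type} [Ring R] [Algebra F R]

/-- the Euler operators on power series -/
def eu (i : ℕ) : PowerSeries F →ₗ[F] PowerSeries F where
  toFun f := mk fun n => (n.choose i : F) * coeff n f
  map_add' f g := by
    ext n
    simp [mul_add]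
  map_smul' c f := by
    ext n
    simp [mul_left_comm]

theorem coeff_eu (i n : ℕ) (f : PowerSeries F) :
    coeff n (eu i f) = (n.choose i : F) * coeff n f :=
  coeff_mk n fun n => (n.choose i : F) * coeff n f

theorem eu_pow (i n : ℕ) : eu i (X ^ n : PowerSeries F) = X ^ n * (n.choose i : PowerSeries F) := by
  ext m
  rw [coeff_eu, ← map_natCast C, coeff_mul_C, coeff_X_pow]
  split_ifs with h <;> simp [h]

theorem binom {A : Type} [CommRing A] (ε : A) (n M : ℕ) :
    ε ^ M ∣ (ε + 1) ^ n - ∑ i ∈ range M, ε ^ i * (n.choose i : A) := by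
  have h1 := sum_range_add (fun i => ε ^ i * (n.choose i : A)) M (n + 1)
  rw [add_comm M, sum_range_add, sum_eq_zero (s := range M) fun i _ => by
    rw [Nat.choose_eq_zero_of_lt (by omega), Nat.cast_zero, mul_zero], add_zero] at h1
  simp only [add_pow, one_pow, mul_one]
  rw [h1, add_sub_cancel_left]
  exact dvd_sum fun i _ => (pow_dvd_pow ε (Nat.le_add_right M i)).mul_right _

/-- the Taylor expansion of a substitution -/
theorem expand (σ : PowerSeries F ≃ₐ[F] PowerSeries F) {ε : PowerSeries F} (h : σ X = X * (ε + 1))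
    (h0 : ε ≠ 0) (M : ℕ) (f : PowerSeries F) : ε ^ M ∣ σ f - ∑ i ∈ range M, ε ^ i * eu i f := by
  obtain ⟨N, hN⟩ := IsDiscreteValuationRing.associated_pow_irreducible (pow_ne_zero M h0)
    (X_prime (R := F)).irreducible
  have hadd : ∀ f g : PowerSeries F, ε ^ M ∣ σ f - ∑ i ∈ range M, ε ^ i * eu i f →
      ε ^ M ∣ σ g - ∑ i ∈ range M, ε ^ i * eu i g →
        ε ^ M ∣ σ (f + g) - ∑ i ∈ range M, ε ^ i * eu i (f + g) := fun f g h1 h2 => by
    simp only [map_add, mul_add, sum_add_distrib, ← sub_add_sub_comm]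
    exact h1.add h2
  have hpol : ∀ P : Polynomial F,
      ε ^ M ∣ σ P - ∑ i ∈ range M, ε ^ i * eu i (P : PowerSeries F) := fun P => by
    induction P using Polynomial.induction_on' with
    | add P Q h1 h2 => exact Polynomial.coe_add P Q ▸ hadd _ _ h1 h2
    | monomial n c =>
      rw [Polynomial.coe_monomial, monomial_eq_C_mul_X_pow, ← smul_eq_C_mul]
      simp only [map_smul, mul_smul_comm, ← smul_sum, ← smul_sub, map_pow, h, mul_pow, eu_pow,
        mul_left_comm (ε ^ _), ← mul_sum, ← mul_sub]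
      rw [smul_eq_C_mul]
      exact ((binom ε n M).mul_left _).mul_left _
  have h1 : X ^ N ∣ f - (trunc N f : PowerSeries F) := X_pow_dvd_iff.2 fun m hm => by
    rw [map_sub, Polynomial.coeff_coe, coeff_trunc, if_pos hm, sub_self]
  rw [← sub_add_cancel f (trunc N f)]
  refine hadd _ _ (hN.dvd.trans (dvd_sub ?_ (dvd_sum fun i _ => Dvd.dvd.mul_left ?_ _))) (hpol _)
  · obtain ⟨g, hg⟩ := h1
    rw [hg, map_mul, map_pow, h, mul_pow, mul_assoc]
    exact dvd_mul_right _ _
  · exact X_pow_dvd_iff.2 fun m hm => by rw [coeff_eu, X_pow_dvd_iff.1 h1 m hm, mul_zero]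

theorem pow_mem (D : GD p F) (a : D.G) (l : ℕ) : a ^ p ^ l ∈ D.Gf (2 * l + 1) := by
  induction l with
  | zero => exact D.Gf_one _
  | succ l ih =>
    rw [pow_succ, pow_mul]
    exact D.Gf_pow (by omega) ih

/-- elements of arbitrarily large finite depth -/
theorem exists_deep [Fact p.Prime] (D : GD p F) (d : ℕ) :
    ∃ (a : D.G) (ε : PowerSeries F), D.act a X = X * (ε + 1) ∧ ε ≠ 0 ∧ X ^ d ∣ ε := by
  obtain ⟨l, hl⟩ := D.cont d
  obtain ⟨g, hg⟩ := hl _ (D.Gf_anti (by omega) (pow_mem D D.γ₁ l))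
  refine ⟨D.γ₁ ^ p ^ l, X ^ d * g, by rw [sub_eq_iff_eq_add.1 hg]; ring, fun e => ?_,
    dvd_mul_right _ _⟩
  refine D.keat_odd l _ (pow_mem D D.γ₁ l) (fun h => ?_) ?_
  · exact (Fact.out : p.Prime).not_dvd_one
      (Int.natCast_dvd_natCast.1 (D.odd_ind l 1 0 (by simpa using h)).1)
  · rw [Dep, hg, pow_succ' X d, mul_assoc, e, mul_zero]
    exact dvd_zero _

theorem fix_ps [Fact p.Prime] {f : PowerSeries F} (h : ∀ a, D.act a f = f) : ∃ k, f = C k := by
  have h1 : ∀ i, eu (i + 1) f = 0 := fun i => by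
    induction i using Nat.strong_induction_on with
    | _ i ih =>
      ext d
      obtain ⟨a, ε, h2, h3, h4⟩ := exists_deep D (d + 1)
      have h5 := expand _ h2 h3 (i + 2) f
      have h6 : eu 0 f = f := by
        ext n
        simp [coeff_eu]
      rw [h, sum_range_succ', sum_range_succ, sum_eq_zero fun j hj => by
        rw [ih j (mem_range.1 hj), mul_zero], h6, pow_zero, one_mul, zero_add, sub_add_cancel_right,
        dvd_neg, pow_succ, mul_dvd_mul_iff_left (pow_ne_zero _ h3)] at h5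
      exact X_pow_dvd_iff.1 (h4.trans h5) d d.lt_succ_self
  refine ⟨coeff 0 f, PowerSeries.ext fun n => ?_⟩
  cases n with
  | zero => simp
  | succ n => simpa [coeff_eu] using congrArg (coeff (n + 1)) (h1 n)

/-- **The fixed field of `G` in `K` is `F`.** -/
theorem fix [Fact p.Prime] {c : KK F} (h : ∀ a, D.actK a c = c) :
    ∃ k : F, c = algebraMap F (KK F) k := by
  have h0 : ∀ c : KK F, (∀ a, D.actK a c = c) → IsLocalization.IsInteger (PowerSeries F) c →
      ∃ k : F, c = algebraMap F (KK F) k := by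
    rintro _ h ⟨f, rfl⟩
    obtain ⟨k, rfl⟩ := fix_ps (D := D) (f := f) fun a =>
      IsFractionRing.injective (PowerSeries F) (KK F) (by rw [← D.actK_alg, h])
    exact ⟨k, (IsScalarTower.algebraMap_apply F (PowerSeries F) (KK F) k).symm⟩
  rcases ValuationRing.isInteger_or_isInteger (PowerSeries F) c with h1 | h1
  · exact h0 c h h1
  · obtain ⟨k, hk⟩ := h0 c⁻¹ (fun a => by rw [map_inv₀, h]) h1
    exact ⟨k⁻¹, by rw [map_inv₀, ← hk, inv_inv]⟩

/-- an additive map which commutes with the multiplications by power series is a multiplication -/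
theorem eq_mul (φ : KK F →+ KK F) (h : ∀ (f : PowerSeries F) z,
    φ (algebraMap (PowerSeries F) (KK F) f * z) = algebraMap (PowerSeries F) (KK F) f * φ z)
    (z : KK F) : φ z = z * φ 1 := by
  obtain ⟨x, y, hy, rfl⟩ := IsFractionRing.div_surjective (A := PowerSeries F) z
  have h0 := IsFractionRing.to_map_ne_zero_of_mem_nonZeroDivisors (K := KK F) hy
  refine mul_left_cancel₀ h0 ?_
  rw [← h, ← mul_assoc, mul_div_cancel₀ _ h0, ← h, mul_one]

/-- **Schur's lemma for the module `K`** (the field `AlgA.schur`). -/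
theorem schur [Fact p.Prime] (S : RD D R) (φ : KK F →+ KK F)
    (h : ∀ r z, φ (S.op r z) = S.op r (φ z)) : ∃ c : F, ∀ z, φ z = c • z := by
  obtain ⟨k, hk⟩ := fix (D := D) (c := φ 1) fun a => by
    rw [← S.op_gr, ← h, S.op_gr, map_one]
  refine ⟨k, fun z => ?_⟩
  rw [eq_mul φ (fun f z => by rw [← S.op_sc, h, S.op_sc]) z, hk, Algebra.smul_def, mul_comm]

end Vale.Agent.P221X.FIX
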